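import Vale.Agent.P120.MathlibUsed

open MeasureTheory Metric Set

namespace Vale.Agent.P120

/-- Euclidean space of dimension `d`. -/
abbrev Eu (d : ℕ) := EuclideanSpace ℝ (Fin d)

/-- `n`-Ahlfors-David regularity of a measure on `R^d`. -/
def ADRegular {d : ℕ} (n : ℕ) (μ : Measure (Eu d)) : Prop :=
  ∃ C : ℝ, 1 ≤ C ∧ ∀ x ∈ μ.support, ∀ r : ℝ, 0 < r → ENNReal.ofReal r ≤ ediam μ.support →
    ENNReal.ofReal (C⁻¹ * r ^ n) ≤ μ (ball x r) ∧ μ (ball x r) ≤ ENNReal.ofReal (C * r ^ n)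

/-- The `n`-dimensional Riesz kernel `z / |z|^(n+1)`. -/
noncomputable def rieszKernel {d : ℕ} (n : ℕ) (z : Eu d) : Eu d := (‖z‖ ^ (n + 1))⁻¹ • z

/-- The truncated Riesz transform `R_{μ,ε} f (x)`. -/
noncomputable def truncRiesz {d : ℕ} (n : ℕ) (μ : Measure (Eu d)) (ε : ℝ) (f : Eu d → ℝ)
    (x : Eu d) : Eu d :=
  ∫ y in {y | ε < dist x y}, f y • rieszKernel n (x - y) ∂μ

/-- The `n`-dimensional Riesz transform is bounded on `L^2(μ)`. -/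
def RieszBounded {d : ℕ} (n : ℕ) (μ : Measure (Eu d)) : Prop :=
  ∃ C : ℝ, 0 ≤ C ∧ ∀ f : Eu d → ℝ, MemLp f 2 μ → ∀ ε : ℝ, 0 < ε →
    (∀ᵐ x ∂μ, IntegrableOn (fun y => f y • rieszKernel n (x - y)) {y | ε < dist x y} μ) ∧
    eLpNorm (truncRiesz n μ ε f) 2 μ ≤ ENNReal.ofReal C * eLpNorm f 2 μ

/-- Uniform `n`-rectifiability (big pieces of Lipschitz images of balls of `R^n`). -/
def UniformlyRectifiable {d : ℕ} (n : ℕ) (μ : Measure (Eu d)) : Prop :=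
  ∃ θ : ℝ, 0 < θ ∧ ∃ M : NNReal, ∀ x ∈ μ.support, ∀ r : ℝ, 0 < r →
    ENNReal.ofReal r ≤ ediam μ.support →
    ∃ g : Eu n → Eu d, LipschitzOnWith M g (ball 0 r) ∧
      ENNReal.ofReal (θ * r ^ n) ≤ μ (ball x r ∩ g '' ball 0 r)

end Vale.Agent.P120
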