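import Vale.Agent.P120.Final

open MeasureTheory Metric Set

namespace Vale.Agent.P120

/-- `n`-Ahlfors-David regularity with constant `C`. -/
def ADRegularWith {d : ℕ} (n : ℕ) (C : ℝ) (μ : Measure (Eu d)) : Prop :=
  1 ≤ C ∧ ∀ x ∈ μ.support, ∀ r : ℝ, 0 < r → ENNReal.ofReal r ≤ ediam μ.support →
    ENNReal.ofReal (C⁻¹ * r ^ n) ≤ μ (ball x r) ∧ μ (ball x r) ≤ ENNReal.ofReal (C * r ^ n)

/-- The `n`-dimensional Riesz transform is bounded on `L^2(μ)` with norm at most `C`. -/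
def RieszBoundedWith {d : ℕ} (n : ℕ) (C : ℝ) (μ : Measure (Eu d)) : Prop :=
  0 ≤ C ∧ ∀ f : Eu d → ℝ, MemLp f 2 μ → ∀ ε : ℝ, 0 < ε →
    (∀ᵐ x ∂μ, IntegrableOn (fun y => f y • rieszKernel n (x - y)) {y | ε < dist x y} μ) ∧
    eLpNorm (truncRiesz n μ ε f) 2 μ ≤ ENNReal.ofReal C * eLpNorm f 2 μ

/-- Uniform `n`-rectifiability (big pieces of Lipschitz images) with constants `θ` and `M`. -/
def UniformlyRectifiableWith {d : ℕ} (n : ℕ) (θ : ℝ) (M : NNReal) (μ : Measure (Eu d)) : Prop :=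
  0 < θ ∧ ∀ x ∈ μ.support, ∀ r : ℝ, 0 < r → ENNReal.ofReal r ≤ ediam μ.support →
    ∃ g : Eu n → Eu d, LipschitzOnWith M g (ball 0 r) ∧
      ENNReal.ofReal (θ * r ^ n) ≤ μ (ball x r ∩ g '' ball 0 r)

end Vale.Agent.P120
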